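import Vale.Agent.P095.All.Targets
import Vale.Agent.P095.Amen.Coin.Avg
import Vale.Agent.P095.Amen.Coin.Inv

/-!
# P095: the guard for an arbitrary group

`W` is the average over a chain of finite sets of an operator monotone function of the sum of the
translates, so one step of the group moves it by at most one over the length of the chain.
-/

namespace Vale.Agent.P095.All.Guard

open Vale.Agent.P101.KR Vale.Agent.P095.Amen Finset

noncomputable section

/-- The chain of finite sets. -/
def ball {G : Type} [Group G] (S : Finset G) : ℕ → Finset G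
  | 0 => {1}
  | n + 1 => by
    classical
    exact ((insert 1 (S ∪ S.image fun g => g⁻¹)) ×ˢ ball S n).image fun p => p.1 * p.2

section

variable {G : Type} [Group G] (S : Finset G)

theorem one_mem_ball : ∀ n, (1 : G) ∈ ball S n
  | 0 => by simp [ball]
  | n + 1 => by
    classical
    simp only [ball, mem_image, mem_product]
    exact ⟨(1, 1), ⟨mem_insert_self _ _, one_mem_ball n⟩, one_mul 1⟩

theorem mul_mem_ball {g : G} (hg : g ∈ S ∨ g⁻¹ ∈ S ∨ g = 1) {h : G} {n : ℕ} (hh : h ∈ ball S n) :
    g * h ∈ ball S (n + 1) := by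
  classical
  simp only [ball, mem_image, mem_product]
  refine ⟨(g, h), ⟨?_, hh⟩, rfl⟩
  simp only [mem_insert, mem_union, mem_image]
  rcases hg with hg | hg | hg
  · exact .inr (.inl hg)
  · exact .inr (.inr ⟨g⁻¹, hg, inv_inv g⟩)
  · exact .inl hg

theorem ball_mono : Monotone (ball S) :=
  monotone_nat_of_le_succ fun n h hh => by simpa using mul_mem_ball S (g := 1) (.inr (.inr rfl)) hh

variable {F : Type} [CStarAlgebra F] (β : G → F ≃⋆ₐ[ℂ] F)

theorem act_one (hmul : ∀ g h x, β (g * h) x = β g (β h x)) (x : F) : β 1 x = x :=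
  EquivLike.injective (β 1) (by rw [← hmul, one_mul])

/-- The sum of the translates over one set of the chain. -/
def ballSum (bad : F) (n : ℕ) : F := ∑ h ∈ ball S n, β h bad

variable [PartialOrder F] [StarOrderedRing F]

theorem act_ballSum_le (hmul : ∀ g h x, β (g * h) x = β g (β h x)) {bad : F} (hbad : 0 ≤ bad)
    {g : G} (hg : g ∈ S ∨ g⁻¹ ∈ S ∨ g = 1) (n : ℕ) :
    β g (ballSum S β bad n) ≤ ballSum S β bad (n + 1) := by
  classical
  rw [ballSum, map_sum]
  calc ∑ h ∈ ball S n, β g (β h bad) = ∑ h ∈ (ball S n).image (g * ·), β h bad := by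
        rw [sum_image fun x _ y _ e => mul_left_cancel e]
        exact sum_congr rfl fun h _ => (hmul g h bad).symm
    _ ≤ _ := sum_le_sum_of_subset_of_nonneg
        (fun x hx => by
          obtain ⟨h, hh, rfl⟩ := mem_image.1 hx
          exact mul_mem_ball S hg hh)
        fun h _ _ => map_nonneg _ hbad

theorem sqLe_of_le {a b : F} (h : a ≤ b) : SqLe a b := Coin.sqLe_iff.2 h

theorem guard_of_ordered (hmul : ∀ g h x, β (g * h) x = β g (β h x)) (J : ℕ) (hJ : 0 < J)
    (bad : F) (hbad : 0 ≤ bad) {τ : ℝ} (hτ : 0 < τ) :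
    ∃ W : F, 0 ≤ W ∧ W ≤ 1 ∧ W ∈ Cl ((fun h => β h bad) '' (ball S J : Set G)) ∧
      (∀ g ∈ S, ‖β g W - W‖ ≤ 1 / J) ∧ W ≤ (1 / τ) • ∑ h ∈ ball S J, β h bad ∧
      ∀ r : F, star r * r = bad → ‖r * (1 - W) * star r‖ ≤ τ := by
  classical
  set A : ℕ → F := ballSum S β bad with hA
  have hb := Coin.continuous_bankFun hτ
  have hc := Coin.continuous_inv_add hτ
  have hA0 : ∀ n, 0 ≤ A n := fun n => sum_nonneg fun h _ => map_nonneg _ hbad
  set f : ℕ → F := fun n => cfc (Coin.bankFun τ) (A n) with hf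
  have hf0 : ∀ n, 0 ≤ f n := fun n => cfc_nonneg fun t _ => (Coin.bankFun_mem hτ).1
  have hf1 : ∀ n, f n ≤ 1 := fun n => cfc_le_one _ _ fun t _ => (Coin.bankFun_mem hτ).2
  have hform : ∀ Z : F, 0 ≤ Z → cfc (Coin.bankFun τ) Z =
      1 - τ • cfc (fun t : ℝ => (τ + max t 0)⁻¹) Z := fun Z hZ => by
    rw [show Coin.bankFun τ = fun t => 1 - τ * (τ + max t 0)⁻¹ from rfl,
      cfc_sub (fun _ : ℝ => (1 : ℝ)) (fun t => τ * (τ + max t 0)⁻¹) Z continuousOn_const
        (continuous_const.mul hc).continuousOn, cfc_const_one ℝ Z,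
      cfc_const_mul τ _ Z hc.continuousOn]
  have hmono : ∀ {X Y : F}, 0 ≤ X → X ≤ Y → cfc (Coin.bankFun τ) X ≤ cfc (Coin.bankFun τ) Y :=
    fun hX h => by
      rw [hform _ hX, hform _ (hX.trans h)]
      exact sub_le_sub_left (smul_le_smul_of_nonneg_left (Coin.cfc_inv_antitone hτ hX h) hτ.le) _
  have hstep : ∀ g, (g ∈ S ∨ g⁻¹ ∈ S ∨ g = 1) → ∀ n, β g (f n) ≤ f (n + 1) := fun g hg n => by
    rw [hf, StarAlgHomClass.map_cfc (β g) (Coin.bankFun τ) (A n) hb.continuousOn
      (StarAlgEquiv.isometry (β g)).continuous (IsSelfAdjoint.of_nonneg (hA0 n))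
      ((IsSelfAdjoint.of_nonneg (hA0 n)).map _)]
    exact hmono (map_nonneg _ (hA0 n)) (act_ballSum_le S β hmul hbad hg n)
  set c : ℝ := 1 / J
  have hc0 : 0 ≤ c := by positivity
  set W := c • ∑ j ∈ range J, f j with hW
  have hJc : c * J = 1 := by simp only [c]; field_simp
  have hsum : ∑ j ∈ range J, f (j + 1) - ∑ j ∈ range J, f j = f J - f 0 := by
    rw [← sum_sub_distrib, sum_range_sub]
  have hone : c • (1 : F) = algebraMap ℝ F c := (Algebra.algebraMap_eq_smul_one _).symm
  have hdiff : f J - f 0 ≤ 1 := (sub_le_self _ (hf0 0)).trans (hf1 J)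
  refine ⟨W, smul_nonneg hc0 (sum_nonneg fun j _ => hf0 j), ?_, ?_, fun g hg => ?_, ?_, fun r hr => ?_⟩
  · calc W ≤ c • ∑ j ∈ range J, (1 : F) :=
          smul_le_smul_of_nonneg_left (sum_le_sum fun j _ => hf1 j) hc0
      _ = 1 := by
        rw [sum_const, card_range, ← Nat.cast_smul_eq_nsmul ℝ, smul_smul, hJc, one_smul]
  · refine Coin.smul_mem' (sum_mem fun j hj => Coin.cfc_mem' (isClosed_Cl _) (sum_mem fun h hh => ?_) _) c
    exact subset_Cl _ ⟨h, ball_mono S (mem_range.1 hj).le hh, rfl⟩
  · have hsa : IsSelfAdjoint (β g W - W) := by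
      have := IsSelfAdjoint.of_nonneg (smul_nonneg hc0 (sum_nonneg fun j (_ : j ∈ range J) => hf0 j))
      exact (this.map _).sub this
    have hgW : β g W = c • ∑ j ∈ range J, β g (f j) := by
      rw [hW, ← Complex.coe_smul, map_smul, map_sum, Complex.coe_smul]
    refine Coin.norm_le_of_bounds hsa hc0 ?_ ?_
    · rw [← hone, neg_le_sub_iff_le_add]
      have h1 : ∀ j, f j ≤ β g (f (j + 1)) := fun j => by
        have := OrderHomClass.mono (β g)
          (hstep g⁻¹ (.inr (.inl (by rwa [inv_inv]))) j)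
        rwa [← hmul, mul_inv_cancel, act_one β hmul] at this
      have h2 : ∑ j ∈ range J, f j ≤ ∑ j ∈ range J, β g (f j) + 1 := by
        refine (sum_le_sum fun j _ => h1 j).trans ?_
        rw [← map_sum, ← map_sum, ← map_one (β g), ← map_add]
        refine OrderHomClass.mono (β g) ?_
        rw [← sub_le_iff_le_add', hsum]
        exact hdiff
      calc W ≤ c • (∑ j ∈ range J, β g (f j) + 1) := smul_le_smul_of_nonneg_left h2 hc0
        _ = _ := by rw [smul_add, hgW]
    · rw [← hone, sub_le_iff_le_add', hgW, hW, ← smul_add]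
      refine smul_le_smul_of_nonneg_left ((sum_le_sum fun j _ => hstep g (.inl hg) j).trans ?_) hc0
      rw [← sub_le_iff_le_add', hsum]
      exact hdiff
  · have h1 : ∀ Z : F, 0 ≤ Z → cfc (Coin.bankFun τ) Z ≤ (1 / τ) • Z := fun Z hZ => by
      conv_rhs => rw [← cfc_id' ℝ Z, ← cfc_smul (1 / τ) (fun t : ℝ => t) Z continuous_id.continuousOn]
      refine cfc_mono (fun t ht => ?_) hb.continuousOn (continuous_id.const_smul (1 / τ)).continuousOn
      have h0 := spectrum_nonneg_of_nonneg hZ ht
      simp only [Coin.bankFun, max_eq_left h0, smul_eq_mul]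
      have : 0 < τ + t := by linarith
      field_simp
      nlinarith
    calc W ≤ c • ∑ j ∈ range J, (1 / τ) • A J := by
          refine smul_le_smul_of_nonneg_left (sum_le_sum fun j hj => (h1 _ (hA0 j)).trans ?_) hc0
          exact smul_le_smul_of_nonneg_left (sum_le_sum_of_subset_of_nonneg
            (ball_mono S (mem_range.1 hj).le) fun h _ _ => map_nonneg _ hbad) (by positivity)
      _ = _ := by
        rw [sum_const, card_range, ← Nat.cast_smul_eq_nsmul ℝ, smul_smul, hJc, one_smul]
        rfl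
  · set k : ℝ → ℝ := fun t => (τ + max t 0)⁻¹
    have hle : 1 - W ≤ τ • cfc k bad := by
      have h2 : ∀ j, 1 - f j ≤ τ • cfc k bad := fun j => by
        rw [show f j = _ from hform _ (hA0 j), sub_sub_cancel]
        refine smul_le_smul_of_nonneg_left (Coin.cfc_inv_antitone hτ hbad ?_) hτ.le
        refine le_of_eq_of_le (act_one β hmul bad).symm ?_
        exact single_le_sum (fun h _ => map_nonneg (β h) hbad) (one_mem_ball S j)
      calc 1 - W = c • ∑ j ∈ range J, (1 - f j) := by
            rw [sum_sub_distrib, smul_sub, ← hW, sum_const, card_range, ← Nat.cast_smul_eq_nsmul ℝ,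
              smul_smul, hJc, one_smul]
        _ ≤ c • ∑ j ∈ range J, τ • cfc k bad := smul_le_smul_of_nonneg_left (sum_le_sum fun j _ => h2 j) hc0
        _ = _ := by rw [sum_const, card_range, ← Nat.cast_smul_eq_nsmul ℝ, smul_smul, hJc, one_smul]
    have hW1 : 0 ≤ 1 - W := by
      have h2 : ∀ j, 0 ≤ 1 - f j := fun j => sub_nonneg.2 (hf1 j)
      calc (0 : F) ≤ c • ∑ j ∈ range J, (1 - f j) := smul_nonneg hc0 (sum_nonneg fun j _ => h2 j)
        _ = _ := by
          rw [sum_sub_distrib, smul_sub, ← hW, sum_const, card_range, ← Nat.cast_smul_eq_nsmul ℝ,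
            smul_smul, hJc, one_smul]
    refine (CStarAlgebra.norm_le_norm_of_nonneg_of_le (star_right_conjugate_nonneg hW1 r)
      (star_right_conjugate_le_conjugate hle r)).trans ?_
    set g : ℝ → ℝ := fun t => Real.sqrt (τ * k t)
    have hgc : Continuous g := Real.continuous_sqrt.comp (continuous_const.mul hc)
    have hk0 : ∀ t, 0 ≤ τ * k t := fun t =>
      mul_nonneg hτ.le (inv_nonneg.2 (add_nonneg hτ.le (le_max_right _ _)))
    have hsplit : τ • cfc k bad = cfc g bad * star (cfc g bad) := by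
      rw [(cfc_predicate g bad : IsSelfAdjoint _).star_eq,
        ← cfc_mul g g bad hgc.continuousOn hgc.continuousOn, ← cfc_const_mul τ k bad hc.continuousOn]
      exact cfc_congr fun t _ => (Real.mul_self_sqrt (hk0 t)).symm
    rw [hsplit, show r * (cfc g bad * star (cfc g bad)) * star r =
      (r * cfc g bad) * star (r * cfc g bad) by rw [star_mul]; simp only [mul_assoc],
      CStarRing.norm_self_mul_star, ← CStarRing.norm_star_mul_self, star_mul,
      show star (cfc g bad) * star r * (r * cfc g bad) = star (cfc g bad) * (star r * r) * cfc g bad by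
        simp only [mul_assoc], hr]
    have hid : cfc (fun t : ℝ => t) bad = bad := cfc_id' ℝ bad (IsSelfAdjoint.of_nonneg hbad)
    have hc' := Coin.conj_cfc bad g (fun t => t) hgc continuous_id
    rw [hid] at hc'
    rw [hc']
    refine norm_cfc_le hτ.le fun t ht => ?_
    have h0 := spectrum_nonneg_of_nonneg hbad ht
    rw [show g t * t * g t = g t * g t * t by ring, Real.mul_self_sqrt (hk0 t),
      Real.norm_of_nonneg (mul_nonneg (hk0 t) h0)]
    simp only [k, max_eq_left h0]
    rw [mul_assoc, inv_mul_eq_div]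
    refine mul_le_of_le_one_right hτ.le ((div_le_one (by linarith)).2 (by linarith))

end

/-- The guard exists for every group. -/
theorem _root_.Vale.Agent.P095.All.guard_of : GuardTarget := by
  intro G _ S δ hδ
  obtain ⟨J, hJ⟩ := exists_nat_gt (1 / δ)
  have hJ0 : (0 : ℝ) < J := lt_trans (by positivity) hJ
  refine ⟨ball S J, one_mem_ball S J, fun F _ β hmul bad τ hbad hτ => ?_⟩
  let _ := CStarAlgebra.spectralOrder F
  have := CStarAlgebra.spectralOrderedRing F
  obtain ⟨W, h0, h1, hm, hd, hle, hr⟩ := guard_of_ordered S β hmul J (by exact_mod_cast hJ0) bad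
    (Coin.sqLe_iff.1 hbad) hτ
  refine ⟨W, sqLe_of_le h0, sqLe_of_le h1, hm, fun g hg => (hd g hg).trans ?_, sqLe_of_le hle, hr⟩
  rw [div_le_iff₀ hJ0]
  rw [div_lt_iff₀ hδ] at hJ
  linarith

end

end Vale.Agent.P095.All.Guard
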